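import Vale.Agent.P272.K.AMP.Vol
import Mathlib.MeasureTheory.Function.ContinuousMapDense
import Mathlib.MeasureTheory.Measure.Decomposition.RadonNikodym
import Mathlib.MeasureTheory.Measure.Decomposition.IntegralRNDeriv
import Mathlib.Geometry.Manifold.Metrizable
import Mathlib.Geometry.Manifold.PartitionOfUnity

/-! Smooth approximation, in `L¹`, of a measure with bounded density. -/

open scoped Manifold ContDiff ComplexOrder ComplexConjugate Topology ENNReal
open MeasureTheory Set Filter

set_option linter.all false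

noncomputable section

namespace Vale.Agent.P272.S3O

open Vale.Agent.P272.K Vale.Agent.P272.K.AMP

variable {n : ℕ} {X : Type*} [TopologicalSpace X] [ChartedSpace (Cm n) X]
  [IsManifold 𝓘(ℂ, Cm n) ω X] [T2Space X] [CompactSpace X]

omit [IsManifold 𝓘(ℂ, Cm n) ω X] in
variable (n X) in
include n in
lemma metrizable : TopologicalSpace.MetrizableSpace X :=
  Manifold.metrizableSpace 𝓘(ℝ, Cm n) X

/-- a continuous function is uniformly close to a smooth one -/
theorem exists_smooth {g : X → ℝ} (hg : Continuous g) {δ : ℝ} (hδ : 0 < δ) :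
    ∃ F : X → ℝ, SmoothFn (n := n) F ∧ ∀ x, |F x - g x| < δ := by
  have := INT.isManifold_real n X
  obtain ⟨F, hF⟩ := exists_contMDiffMap_forall_mem_convex_of_local_const (n := ⊤) 𝓘(ℝ, Cm n)
    (t := fun x => Metric.ball (g x) δ) (fun x => convex_ball _ _) (fun x => ⟨g x, by
      have h1 : ∀ᶠ y in 𝓝 x, dist (g y) (g x) < δ := Metric.continuousAt_iff'.1 hg.continuousAt δ hδ
      filter_upwards [h1] with y hy
      rw [Metric.mem_ball, dist_comm]; exact hy⟩)
  refine ⟨F, INT.smoothFn_of_contMDiff F.contMDiff, fun x => ?_⟩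
  have := hF x
  rwa [Metric.mem_ball, Real.dist_eq] at this

variable [MeasurableSpace X] [BorelSpace X]

/-- approximation of a measure with bounded density by smooth positive densities -/
theorem exists_density [Nonempty X] {ν m : Measure X} [IsFiniteMeasure ν] [IsFiniteMeasure m] {Λ : ℝ≥0∞}
    (hΛ : Λ ≠ ⊤) (hm : m ≤ Λ • ν) {δ : ℝ} (hδ : 0 < δ) :
    ∃ F : X → ℝ, SmoothFn (n := n) F ∧ (∀ x, 0 < F x) ∧ (∀ x, F x ≤ Λ.toReal + 1) ∧
      ∀ h : X → ℝ, Continuous h → ∀ B : ℝ, (∀ x, |h x| ≤ B) →
        |∫ x, h x ∂m - ∫ x, h x * F x ∂ν| ≤ B * δ := by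
  haveI := metrizable n X
  have hac : m ≪ ν := Measure.absolutelyContinuous_of_le_smul hm
  set f : X → ℝ := fun x => (m.rnDeriv ν x).toReal with hf
  have hfi : Integrable f ν := Measure.integrable_toReal_rnDeriv
  have hfle : ∀ᵐ x ∂ν, f x ≤ Λ.toReal := by
    have h1 : m.rnDeriv ν ≤ᵐ[ν] fun _ => Λ := by
      refine ae_le_of_forall_setLIntegral_le_of_sigmaFinite (Measure.measurable_rnDeriv m ν) ?_
      intro s hs _
      rw [Measure.setLIntegral_rnDeriv hac, setLIntegral_const]
      exact hm s
    filter_upwards [h1] with x hx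
    exact ENNReal.toReal_mono hΛ hx
  obtain ⟨g, hg, -⟩ := hfi.exists_boundedContinuous_integral_sub_le (half_pos hδ)
  set g1 : X → ℝ := fun x => max 0 (min (g x) Λ.toReal) with hg1
  have hg1c : Continuous g1 := by fun_prop
  set V := ν.real univ with hV
  have hV0 : 0 ≤ V := measureReal_nonneg
  set δ' : ℝ := min (1 / 2) (δ / (4 * (V + 1))) with hδ'
  have hδ'0 : 0 < δ' := lt_min (by norm_num) (by positivity)
  have hδ'1 : δ' ≤ 1 / 2 := min_le_left _ _
  have hδ'2 : δ' * V ≤ δ / 4 := by
    have h1 : δ' ≤ δ / (4 * (V + 1)) := min_le_right _ _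
    have h2 : δ' * (V + 1) ≤ δ / 4 := by
      have := mul_le_mul_of_nonneg_right h1 (by linarith : 0 ≤ V + 1)
      refine this.trans (le_of_eq ?_)
      field_simp
    nlinarith
  obtain ⟨F, hFs, hF⟩ := exists_smooth (n := n) (g := fun x => g1 x + δ') (by fun_prop) hδ'0
  have hg10 : ∀ x, 0 ≤ g1 x := fun x => le_max_left _ _
  have hg11 : ∀ x, g1 x ≤ Λ.toReal := fun x => max_le ENNReal.toReal_nonneg (min_le_right _ _)
  have hF0 : ∀ x, 0 < F x := fun x => by
    have := (abs_lt.1 (hF x)).1
    have := hg10 x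
    linarith
  have hFu : ∀ x, F x ≤ Λ.toReal + 1 := fun x => by
    have := (abs_lt.1 (hF x)).2
    have := hg11 x
    linarith
  have hFc : Continuous F := INT.SmoothFn.continuous hFs
  refine ⟨F, hFs, hF0, hFu, fun h hh B hB => ?_⟩
  have hint : ∀ {u : X → ℝ}, Continuous u → Integrable u ν := fun {u} hu => by
    obtain ⟨C, hC⟩ := (isCompact_range hu).isBounded.exists_norm_le
    exact Integrable.of_bound hu.aestronglyMeasurable C (Eventually.of_forall fun x => hC _ ⟨x, rfl⟩)
  have hhb : ∀ x, ‖h x‖ ≤ B := fun x => by rw [Real.norm_eq_abs]; exact hB x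
  have h1 : ∫ x, h x ∂m = ∫ x, h x * f x ∂ν := by
    rw [← integral_rnDeriv_smul hac]
    refine integral_congr_ae (Eventually.of_forall fun x => ?_)
    simp only [smul_eq_mul, hf]; ring
  have hhf : Integrable (fun x => h x * f x) ν :=
    hfi.bdd_mul hh.aestronglyMeasurable (Eventually.of_forall hhb)
  have hhF : Integrable (fun x => h x * F x) ν := hint (hh.mul hFc)
  rw [h1, ← integral_sub hhf hhF]
  have hB0 : 0 ≤ B := (abs_nonneg _).trans (hB (Classical.arbitrary X))
  have h2 : |∫ x, (h x * f x - h x * F x) ∂ν| ≤ ∫ x, B * |f x - F x| ∂ν := by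
    rw [← Real.norm_eq_abs]
    refine norm_integral_le_of_norm_le ((hfi.sub (hint hFc)).abs.const_mul B) ?_
    refine Eventually.of_forall fun x => ?_
    rw [← mul_sub, norm_mul, Real.norm_eq_abs (f x - F x)]
    exact mul_le_mul_of_nonneg_right (hhb x) (abs_nonneg _)
  refine h2.trans ?_
  rw [integral_const_mul]
  refine mul_le_mul_of_nonneg_left ?_ hB0
  have h3 : ∫ x, |f x - F x| ∂ν ≤ ∫ x, (‖f x - g x‖ + 2 * δ') ∂ν := by
    refine integral_mono_ae (hfi.sub (hint hFc)).abs
      ((hfi.sub (hint g.continuous)).norm.add (integrable_const _)) ?_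
    filter_upwards [hfle] with x hx
    have hf0 : 0 ≤ f x := ENNReal.toReal_nonneg
    have e1 : |f x - g1 x| ≤ |f x - g x| := by
      rw [hg1]
      rcases le_total (g x) Λ.toReal with h4 | h4
      · simp only [min_eq_left h4]
        rcases le_total 0 (g x) with h5 | h5
        · rw [max_eq_right h5]
        · rw [max_eq_left h5, abs_of_nonneg (by linarith), abs_of_nonneg (by linarith)]
          linarith
      · simp only [min_eq_right h4, max_eq_right ENNReal.toReal_nonneg]
        rw [abs_of_nonpos (by linarith), abs_of_nonpos (by linarith)]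
        linarith
    have e2 := hF x
    rw [Real.norm_eq_abs]
    have e3 : |g1 x - F x| ≤ 2 * δ' := by
      rw [abs_le]
      have := abs_lt.1 e2
      constructor <;> linarith [this.1, this.2]
    calc |f x - F x| = |(f x - g1 x) + (g1 x - F x)| := by ring_nf
      _ ≤ |f x - g1 x| + |g1 x - F x| := abs_add_le _ _
      _ ≤ _ := by linarith
  refine h3.trans ?_
  have hfg : Integrable (fun x => ‖f x - g x‖) ν := (hfi.sub (hint g.continuous)).norm
  rw [integral_add hfg (integrable_const _), integral_const, smul_eq_mul]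
  have : ν.real univ * (2 * δ') ≤ δ / 2 := by rw [← hV]; nlinarith
  linarith

end Vale.Agent.P272.S3O
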