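import Vale.Agent.P272.S3O.Oracle2
import Vale.Agent.P272.S3O.Dens
import Vale.Agent.P272.K.AMP.LEX.Local
import Vale.Agent.P272.K.AMP.H470.Glob

/-! Stage 3, block H3a: the Monge-Ampère duality inequality for measures with bounded density. -/

open scoped Manifold ContDiff ComplexOrder Topology ENNReal
open Complex Set Filter MeasureTheory

set_option linter.all false

noncomputable section

namespace Vale.Agent.P272.S3O

open Vale.Agent.P272.K Vale.Agent.P272.K.AMP Vale.Agent.P272.K.AMP.BIG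
  Vale.Agent.P272.K.AMP.BIG.H327 Vale.Agent.P272.K.AMP.Main Vale.Agent.P272.S2B
open INT (intX PP IsClosedForm)

variable {n : ℕ} {X : Type} [TopologicalSpace X] [ChartedSpace (Cm n) X]
  [IsManifold 𝓘(ℂ, Cm n) ω X] [T2Space X] [CompactSpace X]
  {w : Chart n X → Cm n → Matrix (Fin n) (Fin n) ℂ} {t : ℝ}

omit [T2Space X] [CompactSpace X] in
lemma trX_phiS (hw : IsKahler w) {σ : X → ℝ} (hσ : SmoothFn (n := n) σ) (t : ℝ) (x : X) :
    (trX (gt w t (phiS w σ)) w x)⁻¹ = mX w (chiF w t σ) x := by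
  unfold mX trX atX trE
  rw [phiS_gt hw hσ t (at_chartAt (n := n) x)]

/-- **H3a**, from Aubin-Yau and exponential integrability -/
theorem h3a_of [Nonempty X] [MeasurableSpace X] [BorelSpace X] (hn : 1 ≤ n)
    (hAY : AubinYau n X) (hE : ExpInt n X) (hw : IsKahler w)
    {φ₀ : Chart n X → Cm n → ℝ} (hφ₀ : IsCanonicalMetric φ₀)
    (hpos : ∀ e x, At e x → (gt w t φ₀ e (e x)).PosDef)
    {m : Measure X} [IsProbabilityMeasure m] {Λ : ℝ≥0∞} (hΛ : Λ ≠ ⊤) (hm : m ≤ Λ • volX w) :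
    ∃ φ : Chart n X → Cm n → ℝ, IsCanonicalMetric φ ∧
      (∀ e x, At e x → (gt w t φ e (e x)).PosDef) ∧
      Continuous (fun x => (trX (gt w t φ) w x)⁻¹) ∧ (∀ x, 0 < (trX (gt w t φ) w x)⁻¹) ∧
      (intX fun (e : Chart n X) z => (gt w t φ₀ e z).det.re) ≤
        2 * (intX fun (e : Chart n X) z => (gt w (t + 1) φ₀ e z).det.re) *
          ∫ x, (trX (gt w t φ) w x)⁻¹ ∂m := by
  haveI : NeZero n := ⟨by omega⟩
  have hwH := hw.toIsHermitian
  have hcl := INT.IsKahler.isClosedForm hw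
  haveI := isFiniteMeasure_volX hwH
  have hK0 : 0 < Λ.toReal + 1 := by have := ENNReal.toReal_nonneg (a := Λ); linarith
  obtain ⟨B, hB, hO⟩ := oracle2 (t := t) hn hAY hE hw hφ₀ hpos hK0
  have hdef : (intX fun (e : Chart n X) z => (gt w t φ₀ e z).det.re) = PP φ₀ w t := rfl
  have hdef1 : (intX fun (e : Chart n X) z => (gt w (t + 1) φ₀ e z).det.re) =
      PP φ₀ w (t + 1) := rfl
  rw [hdef, hdef1]
  have hden : ∀ s : ℝ, INT.IsDensity fun (e : Chart n X) z => (cHess (φ₀ e) z + (s : ℂ) • w e z).det.re :=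
    fun s => ((INT.isClosedForm_canonical hφ₀).add (hcl.smul _)).isDensity
  have hV0 : 0 < PP φ₀ w t := INT.intX_pos (hden t) fun e x hx =>
    (INT.posDef_det_re (hpos e x hx)).1
  have hV1 : 0 < PP φ₀ w (t + 1) := INT.intX_pos (hden (t + 1)) fun e x hx => by
    have h1 := (hpos e x hx).add (hw.posDef e x hx)
    have h2 : cHess (φ₀ e) (e x) + ((t + 1 : ℝ) : ℂ) • w e (e x) =
        gt w t φ₀ e (e x) + w e (e x) := by
      unfold gt; push_cast; rw [add_smul, one_smul]; abel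
    rw [h2]
    exact (INT.posDef_det_re h1).1
  set V := PP φ₀ w t with hV
  set V₁ := PP φ₀ w (t + 1) with hV₁
  set δ : ℝ := min (1 / 8) (V / (8 * V₁ * B)) with hδ
  have hδ0 : 0 < δ := lt_min (by norm_num) (by positivity)
  have hδ1 : δ ≤ 1 / 8 := min_le_left _ _
  have hδ2 : V₁ * (B * δ) ≤ V / 8 := by
    have h1 : δ ≤ V / (8 * V₁ * B) := min_le_right _ _
    have h2 := mul_le_mul_of_nonneg_left h1 (by positivity : 0 ≤ V₁ * B)
    have h3 : V₁ * B * (V / (8 * V₁ * B)) = V / 8 := by field_simp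
    rw [h3] at h2
    linarith
  obtain ⟨F, hF, hF0, hFK, hFd⟩ := exists_density (n := n) (ν := volX w) (m := m) hΛ hm hδ0
  have cF := INT.SmoothFn.continuous hF
  have hint : ∀ {u : X → ℝ}, Continuous u → ∫ x, u x ∂(volX w) = IX w u :=
    fun {u} hu => integral_volX hwH hu
  have hA : |1 - IX w F| ≤ 1 * δ := by
    have h1 := hFd (fun _ => 1) continuous_const 1 (fun _ => by simp)
    simp only [one_mul, integral_const, smul_eq_mul, mul_one, probReal_univ] at h1
    rw [← hint cF]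
    simpa using h1
  have hA1 : 7 / 8 ≤ IX w F := by
    have := (abs_le.1 hA).2
    linarith
  obtain ⟨σ, hσ, hσB, hσI⟩ := hO F hF hF0 hFK (by linarith)
  have hχH := (hσ.kahler hw).toIsHermitian
  have cm : Continuous (mX w (chiF w t σ)) := continuous_mX hχH hwH
  have hm0 : ∀ x, 0 < mX w (chiF w t σ) x := fun x => mX_pos hχH hwH x
  have hfun : (fun x => (trX (gt w t (phiS w σ)) w x)⁻¹) = mX w (chiF w t σ) :=
    funext fun x => trX_phiS hw hσ.smooth t x
  refine ⟨phiS w σ, phiS_can hw hσ.smooth, fun e x hx => ?_, by rw [hfun]; exact cm,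
    fun x => by rw [trX_phiS hw hσ.smooth t x]; exact hm0 x, ?_⟩
  · rw [phiS_gt hw hσ.smooth t hx]; exact hσ.pos e x hx
  · rw [hfun]
    have h1 := hFd _ cm B fun x => by rw [abs_of_pos (hm0 x)]; exact hσB x
    have h2 : ∫ x, mX w (chiF w t σ) x * F x ∂(volX w) =
        IX w (fun x => F x * mX w (chiF w t σ) x) := by
      have h9 : ∫ x, F x * mX w (chiF w t σ) x ∂(volX w) =
          IX w (fun x => F x * mX w (chiF w t σ) x) := hint (cF.mul cm)
      rw [← h9]
      exact integral_congr_ae (Eventually.of_forall fun x => mul_comm _ _)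
    rw [h2] at h1
    have h3 := (abs_le.1 h1).1
    set I := ∫ x, mX w (chiF w t σ) x ∂m with hI
    set J := IX w (fun x => F x * mX w (chiF w t σ) x) with hJ
    have h4 : V₁ * (J - B * δ) ≤ V₁ * I := mul_le_mul_of_nonneg_left (by linarith) hV1.le
    have h5 : 3 / 4 * (7 / 8) * V ≤ 3 / 4 * IX w F * V := by nlinarith
    have h6 : V₁ * (J - B * δ) = V₁ * J - V₁ * (B * δ) := by ring
    linarith

/-- **H3a**, unconditionally for connected `X` -/
theorem h3a [ConnectedSpace X] [MeasurableSpace X] [BorelSpace X] (hn : 1 ≤ n)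
    (hw : IsKahler w) {φ₀ : Chart n X → Cm n → ℝ} (hφ₀ : IsCanonicalMetric φ₀)
    (hpos : ∀ e x, At e x → (gt w t φ₀ e (e x)).PosDef)
    {m : Measure X} [IsProbabilityMeasure m] {Λ : ℝ≥0∞} (hΛ : Λ ≠ ⊤) (hm : m ≤ Λ • volX w) :
    ∃ φ : Chart n X → Cm n → ℝ, IsCanonicalMetric φ ∧
      (∀ e x, At e x → (gt w t φ e (e x)).PosDef) ∧
      Continuous (fun x => (trX (gt w t φ) w x)⁻¹) ∧ (∀ x, 0 < (trX (gt w t φ) w x)⁻¹) ∧
      (intX fun (e : Chart n X) z => (gt w t φ₀ e z).det.re) ≤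
        2 * (intX fun (e : Chart n X) z => (gt w (t + 1) φ₀ e z).det.re) *
          ∫ x, (trX (gt w t φ) w x)⁻¹ ∂m :=
  h3a_of hn (aubinYau n X) (AMP.expInt (LEX.localExp n)) hw hφ₀ hpos hΛ hm

end Vale.Agent.P272.S3O
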