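import Vale.Agent.P272.K.AMP.ABP.Mat

/-! `det (G + H) ≥ tr (G⁻¹ H) det G` -/

open scoped ComplexOrder Matrix

noncomputable section

namespace Vale.Agent.P272.S3O

open Vale.Agent.P272.K Vale.Agent.P272.K.C2

variable {ι : Type*} [Fintype ι] [DecidableEq ι]

lemma sum_le_prod_one_add {s : Finset ι} {f : ι → ℝ} (hf : ∀ i, 0 ≤ f i) :
    1 + ∑ i ∈ s, f i ≤ ∏ i ∈ s, (1 + f i) := by
  induction s using Finset.induction_on with
  | empty => simp
  | insert a s ha ih =>
    rw [Finset.sum_insert ha, Finset.prod_insert ha]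
    have h1 : 0 ≤ ∑ i ∈ s, f i := Finset.sum_nonneg fun i _ => hf i
    have h2 := mul_le_mul_of_nonneg_left ih (by linarith [hf a] : 0 ≤ 1 + f a)
    nlinarith [mul_nonneg (hf a) h1]

/-- `1 + tr K ≤ det (1 + K)` for positive definite `K`. -/
theorem det_one_add {K : Matrix ι ι ℂ} (hK : K.PosDef) :
    1 + K.trace.re ≤ (1 + K).det.re := by
  have hH := hK.isHermitian
  set ev := hH.eigenvalues with hev
  have hpos : ∀ i, 0 < ev i := hK.eigenvalues_pos
  have htr : K.trace.re = ∑ i, ev i := by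
    rw [hH.trace_eq_sum_eigenvalues, ← hev]
    simp
  have hdet : (1 + K).det = ((∏ i, (1 + ev i) : ℝ) : ℂ) := by
    have h1 := Matrix.eval_charpoly K (-1)
    rw [hH.charpoly_eq, Polynomial.eval_prod] at h1
    have h2 : (Matrix.scalar ι (-1 : ℂ) - K) = -(1 + K) := by
      rw [Matrix.scalar_apply, neg_add]
      congr 1
      ext i j
      by_cases h : i = j
      · subst h; simp
      · simp [h]
    rw [h2, Matrix.det_neg] at h1
    have h3 : ∏ i, Polynomial.eval (-1 : ℂ) (Polynomial.X - Polynomial.C ((ev i : ℝ) : ℂ)) =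
        (-1) ^ Fintype.card ι * ∏ i, (1 + (ev i : ℂ)) := by
      rw [← Finset.card_univ, ← Finset.prod_const, ← Finset.prod_mul_distrib]
      refine Finset.prod_congr rfl fun i _ => ?_
      simp only [Polynomial.eval_sub, Polynomial.eval_X, Polynomial.eval_C]
      ring
    have h4 : (-1 : ℂ) ^ Fintype.card ι * (1 + K).det =
        (-1) ^ Fintype.card ι * ∏ i, (1 + (ev i : ℂ)) := by
      rw [← h1, ← h3]
      rfl
    have h5 := mul_left_cancel₀ (pow_ne_zero _ (by norm_num : (-1 : ℂ) ≠ 0)) h4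
    rw [h5]
    push_cast
    rfl
  rw [hdet, Complex.ofReal_re, htr]
  exact sum_le_prod_one_add fun i => (hpos i).le

/-- `tr (G⁻¹ H) det G ≤ det (G + H)` -/
theorem det_add_ge {G H : Matrix ι ι ℂ} (hG : G.PosDef) (hH : H.PosDef) :
    (G⁻¹ * H).trace.re * G.det.re ≤ (G + H).det.re := by
  obtain ⟨A, hA⟩ := exists_factor hG.posSemidef
  have hdet : A.det ≠ 0 := by
    intro h
    have := hG.det_pos
    rw [hA, Matrix.det_mul, h, mul_zero] at this
    exact lt_irrefl _ this
  have hAi : IsUnit A⁻¹ := by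
    rw [Matrix.isUnit_iff_isUnit_det]
    exact Matrix.isUnit_nonsing_inv_det _ (isUnit_iff_ne_zero.2 hdet)
  have hK : (A⁻¹ᴴ * H * A⁻¹).PosDef := by
    have := (Matrix.IsUnit.posDef_star_left_conjugate_iff (x := H) hAi).2 hH
    simpa [Matrix.star_eq_conjTranspose] using this
  have h2 : (A⁻¹ᴴ * H * A⁻¹).trace = (G⁻¹ * H).trace := by
    rw [Matrix.trace_mul_comm, ← Matrix.mul_assoc, hA, Matrix.mul_inv_rev,
      Matrix.conjTranspose_nonsing_inv]
  have hdetG : G.det = (Complex.normSq A.det : ℂ) := by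
    rw [hA, Matrix.det_mul, Matrix.det_conjTranspose, mul_comm, RCLike.star_def, Complex.mul_conj]
  have hns : 0 < Complex.normSq A.det := Complex.normSq_pos.2 hdet
  have hAA : A⁻¹ * A = 1 := Matrix.nonsing_inv_mul _ (isUnit_iff_ne_zero.2 hdet)
  have hAA' : Aᴴ * A⁻¹ᴴ = 1 := by
    rw [← Matrix.conjTranspose_mul, hAA, Matrix.conjTranspose_one]
  have h3 : G + H = Aᴴ * (1 + A⁻¹ᴴ * H * A⁻¹) * A := by
    rw [Matrix.mul_add, Matrix.add_mul, Matrix.mul_one, ← hA, ← Matrix.mul_assoc,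
      ← Matrix.mul_assoc, hAA', Matrix.one_mul, Matrix.mul_assoc, hAA, Matrix.mul_one]
  have h4 : (G + H).det = (Complex.normSq A.det : ℂ) * (1 + A⁻¹ᴴ * H * A⁻¹).det := by
    rw [h3, Matrix.det_mul, Matrix.det_mul, Matrix.det_conjTranspose, RCLike.star_def,
      ← Complex.mul_conj]
    ring
  have h5 := det_one_add hK
  rw [h2] at h5
  rw [h4, Complex.re_ofReal_mul, hdetG, Complex.ofReal_re]
  nlinarith

end Vale.Agent.P272.S3O
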