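import Vale.Agent.P272.K.AMP.BIG.H327.Oracle
import Vale.Agent.P272.S2B.Defs
import Vale.Agent.P272.S3O.Mat

/-! The Monge-Ampère duality inequality for smooth densities, with an upper bound of `1/tr`. -/

open scoped Manifold ContDiff ComplexOrder Topology
open Complex Set Filter MeasureTheory

set_option linter.all false

noncomputable section

namespace Vale.Agent.P272.S3O

open Vale.Agent.P272.K Vale.Agent.P272.K.AMP Vale.Agent.P272.K.AMP.BIG
  Vale.Agent.P272.K.AMP.BIG.H327 Vale.Agent.P272.K.AMP.Main Vale.Agent.P272.S2B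
open INT (intX PP IsClosedForm)

variable {n : ℕ} {X : Type} [TopologicalSpace X] [ChartedSpace (Cm n) X]
  [IsManifold 𝓘(ℂ, Cm n) ω X] [T2Space X] [CompactSpace X]
  {w : Chart n X → Cm n → Matrix (Fin n) (Fin n) ℂ} {t : ℝ}

/-- uniform `L¹` bound of the normalised potentials, `t` fixed -/
lemma exists_L1' (hE : ExpInt n X) (hw : IsKahler w) (t : ℝ) : ∃ C1 : ℝ, 0 < C1 ∧
    ∀ σ : X → ℝ, Pot w t σ → (∀ x, σ x ≤ 0) → (∃ x, σ x = 0) → IX w (fun x => -σ x) ≤ C1 := by
  obtain ⟨C, hC0, hC⟩ := exists_upper hw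
  obtain ⟨α, hα, K, hK⟩ := hE w hw.toIsHermitian (C + t) 0
  refine ⟨max (K / α) 1, lt_max_of_lt_right one_pos, fun σ hσ hσ0 hz => ?_⟩
  refine le_trans ?_ (le_max_left _ _)
  obtain ⟨x0, hx0⟩ := hz
  have hq : ∀ e x, At e x → (addH (fun e z => ((C + t : ℝ) : ℂ) • w e z) σ e (e x)).PosSemidef := by
    intro e x hx
    have h1 : addH (fun e z => ((C + t : ℝ) : ℂ) • w e z) σ e (e x) =
        chiF w t σ e (e x) + ((C : ℂ) • w e (e x) -
          cHess (fun z => Real.log (w e z).det.re) (e x)) := by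
      unfold addH chiF
      push_cast
      rw [add_smul]
      abel
    rw [h1]
    exact (hσ.pos e x hx).posSemidef.add (hC e x hx)
  have h1 := hK σ hσ.smooth hq hσ0 ⟨x0, by rw [hx0]; simp⟩
  have cσ := INT.SmoothFn.continuous hσ.smooth
  have h2 : IX w (fun x => α * (-σ x)) ≤ IX w (fun x => Real.exp (-(α * σ x))) :=
    IX_mono hw.toIsHermitian (by fun_prop) (by fun_prop) fun x => by
      have := Real.add_one_le_exp (-(α * σ x))
      linarith
  rw [IX_const_mul] at h2
  rw [le_div_iff₀ hα, mul_comm]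
  exact h2.trans h1

/-- the canonical metric `log det w + σ` -/
def phiS (w : Chart n X → Cm n → Matrix (Fin n) (Fin n) ℂ) (σ : X → ℝ) :
    Chart n X → Cm n → ℝ := fun e z => Real.log (w e z).det.re + σ (e.symm z)

omit [T2Space X] [CompactSpace X] in
lemma phiS_can (hw : IsKahler w) {σ : X → ℝ} (hσ : SmoothFn (n := n) σ) :
    IsCanonicalMetric (phiS w σ) := by
  have hcan := isCanonical_logdet hw.toIsHermitian
  refine ⟨fun e x hx => (hcan.smooth e x hx).add (hσ e x hx), fun e e' x hx hx' => ?_⟩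
  simp only [phiS, hx.left_inv, hx'.left_inv]
  rw [hcan.change e e' x hx hx']; ring

omit [T2Space X] [CompactSpace X] in
lemma phiS_gt (hw : IsKahler w) {σ : X → ℝ} (hσ : SmoothFn (n := n) σ) (t : ℝ) {e : Chart n X}
    {x : X} (hx : At e x) : gt w t (phiS w σ) e (e x) = chiF w t σ e (e x) := by
  have hcan := isCanonical_logdet hw.toIsHermitian
  unfold gt phiS chiF
  rw [cHess_add ((hcan.smooth e x hx).of_le INT.two_le_inf) (INT.SmoothFn.two hσ e x hx)]
  abel

/-- `∫ tr_χ w dv_χ ≤ (K_X + (t+1) w)^n` -/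
lemma IX_tr_le (hw : IsKahler w) {σ : X → ℝ} (h : Pot w t σ)
    {φ₀ : Chart n X → Cm n → ℝ} (hφ₀ : IsCanonicalMetric φ₀) :
    IX (chiF w t σ) (trX (chiF w t σ) w) ≤ PP φ₀ w (t + 1) := by
  have hcl := INT.IsKahler.isClosedForm hw
  have hχ := (h.kahler hw).toIsHermitian
  rw [INT.PP_eq hφ₀ (phiS_can hw h.smooth) hcl]
  have hd1 : INT.IsDensity fun e z => (cHess (phiS w σ e) z + ((t + 1 : ℝ) : ℂ) • w e z).det.re :=
    ((INT.isClosedForm_canonical (phiS_can hw h.smooth)).add (hcl.smul _)).isDensity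
  have htr := INT.SmoothFn.continuous (smoothFn_trX (n := n) hχ hw.toIsHermitian.isForm
    hw.toIsHermitian.smooth)
  unfold IX PP
  refine INT.intX_mono (isDensity_IX hχ htr) hd1 fun e x hx => ?_
  have h1 : trX (chiF w t σ) w x = ((chiF w t σ e (e x))⁻¹ * w e (e x)).trace.re :=
    trX_eq hχ hw.toIsHermitian.isForm hx
  have h2 : cHess (phiS w σ e) (e x) + ((t + 1 : ℝ) : ℂ) • w e (e x) =
      chiF w t σ e (e x) + w e (e x) := by
    have h3 := phiS_gt hw h.smooth t hx
    unfold gt at h3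
    rw [← h3]
    push_cast
    rw [add_smul, one_smul]
    abel
  rw [hx.left_inv, h1, h2]
  exact det_add_ge (h.pos e x hx) (hw.posDef e x hx)

/-- `1/tr_χ w ≤ 1 + det χ / det w` (`n ≥ 1`) -/
lemma mX_le (hn : 1 ≤ n) {χ : Chart n X → Cm n → Matrix (Fin n) (Fin n) ℂ}
    (hχ : IsHermitian χ) (hw : IsHermitian w) {e : Chart n X} {x : X}
    (hx : At e x) : mX w χ x ≤ 1 + (χ e (e x)).det.re / (w e (e x)).det.re := by
  haveI : NeZero n := ⟨by omega⟩
  haveI : Nonempty (Fin n) := ⟨⟨0, by omega⟩⟩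
  have hn' : (1 : ℝ) ≤ n := by exact_mod_cast hn
  have hc := hχ.det_re_pos hx
  have hw0 := hw.det_re_pos hx
  have h1 := ABP.amgm_trace_inv (hχ.posDef e x hx) (hw.posDef e x hx)
  rw [Fintype.card_fin] at h1
  have h2 : trX χ w x = ((χ e (e x))⁻¹ * w e (e x)).trace.re := trX_eq hχ hw.isForm hx
  rw [← h2] at h1
  set q : ℝ := (χ e (e x)).det.re / (w e (e x)).det.re with hq
  have hq0 : 0 < q := div_pos hc hw0
  have h3 : (w e (e x)).det.re / (χ e (e x)).det.re = q⁻¹ := by rw [hq, inv_div]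
  rw [h3, Real.inv_rpow hq0.le] at h1
  have hp : 0 < q ^ ((1 : ℝ) / n) := Real.rpow_pos_of_pos hq0 _
  have h4 : (q ^ ((1 : ℝ) / n))⁻¹ ≤ trX χ w x := by
    refine le_trans ?_ h1
    exact le_mul_of_one_le_left (inv_pos.2 hp).le (by linarith)
  have h5 : mX w χ x ≤ q ^ ((1 : ℝ) / n) := by
    have := inv_anti₀ (inv_pos.2 hp) h4
    rwa [inv_inv] at this
  refine h5.trans ?_
  have h8 : (1 : ℝ) / n ≤ 1 := by rw [div_le_one (by linarith)]; exact hn'
  have h9 : (0 : ℝ) ≤ 1 / n := by positivity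
  rcases le_total q 1 with h | h
  · have := Real.rpow_le_one hq0.le h h9
    linarith
  · have := Real.rpow_le_rpow_of_exponent_le h h8
    rw [Real.rpow_one] at this
    linarith

/-- **the duality inequality for smooth densities** -/
theorem oracle2 [Nonempty X] (hn : 1 ≤ n) (hAY : AubinYau n X) (hE : ExpInt n X) (hw : IsKahler w)
    {φ₀ : Chart n X → Cm n → ℝ} (hφ₀ : IsCanonicalMetric φ₀)
    (hpos : ∀ e x, At e x → (gt w t φ₀ e (e x)).PosDef) {K0 : ℝ} (hK0 : 0 < K0) :
    ∃ B : ℝ, 0 < B ∧ ∀ F : X → ℝ, SmoothFn (n := n) F → (∀ x, 0 < F x) → (∀ x, F x ≤ K0) →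
      1 / 2 ≤ IX w F → ∃ σ : X → ℝ, Pot w t σ ∧ (∀ x, mX w (chiF w t σ) x ≤ B) ∧
        3 / 4 * IX w F * PP φ₀ w t ≤
          PP φ₀ w (t + 1) * IX w (fun x => F x * mX w (chiF w t σ) x) := by
  haveI : NeZero n := ⟨by omega⟩
  have hwH := hw.toIsHermitian
  have hcl := INT.IsKahler.isClosedForm hw
  obtain ⟨C1, hC1, hL1⟩ := exists_L1' hE hw t
  have hP : Pos w t := ⟨φ₀, hφ₀, hpos⟩
  set V := PP φ₀ w t with hV
  set V₁ := PP φ₀ w (t + 1) with hV1
  have hVp : PP (phi0 w) w t = V := INT.PP_eq (isCanonical_logdet hwH) hφ₀ hcl t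
  refine ⟨1 + K0 * (8 / 3 * |V|), by positivity, fun F hF hF0 hFK hA => ?_⟩
  have cF := INT.SmoothFn.continuous hF
  set A := IX w F with hAdef
  have hA0 : 0 < A := by linarith
  -- the parameter
  set lam : ℝ := 1 / 4 * A / (K0 * C1) with hlam
  have hlam0 : 0 < lam := by positivity
  obtain ⟨σ, hσ, hMA⟩ := exists_MA hAY hw hP hF hF0 hlam0
  have hχ := hσ.kahler hw
  have hχH := hχ.toIsHermitian
  have cσ := INT.SmoothFn.continuous hσ.smooth
  obtain ⟨x0, -, hx0⟩ := isCompact_univ.exists_isMaxOn ⟨Classical.arbitrary X, Set.mem_univ _⟩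
    cσ.continuousOn
  have hσmax : ∀ x, σ x ≤ σ x0 := fun x => hx0 (Set.mem_univ x)
  set s := σ x0 with hs
  set E : ℝ := Real.exp (lam * s) with hEdef
  have hE0 : 0 < E := Real.exp_pos _
  have hσs : Pot w t (fun x => σ x + -s) := hσ.add_const (-s)
  have hL := hL1 _ hσs (fun x => by have := hσmax x; linarith) ⟨x0, by rw [← hs]; ring⟩
  -- the volume
  have hvol : V = IX w (fun x => F x * Real.exp (lam * σ x)) := by
    rw [← hVp, ← Pot.vol hw hσ.smooth]
    unfold IX
    refine INT.intX_congr fun e x hx => ?_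
    rw [hMA e x hx, hx.left_inv]
  have hV0 : 0 < V := by
    rw [hvol]
    exact IX_pos hwH (by fun_prop) fun x => mul_pos (hF0 x) (Real.exp_pos _)
  have h2 : E * (A * (3 / 4)) ≤ V := by
    have h3 : IX w (fun x => E * (F x - lam * (K0 * (-(σ x + -s))))) ≤ V := by
      rw [hvol]
      refine IX_mono hwH (by fun_prop) (by fun_prop) fun x => ?_
      have h4 : Real.exp (lam * σ x) = E * Real.exp (-(lam * (-(σ x + -s)))) := by
        rw [hEdef, ← Real.exp_add]; congr 1; ring
      rw [h4]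
      have h5 := Real.add_one_le_exp (-(lam * (-(σ x + -s))))
      have h6 : 0 ≤ -(σ x + -s) := by have := hσmax x; linarith
      have h7 : F x - lam * (K0 * (-(σ x + -s))) ≤
          F x * (-(lam * (-(σ x + -s))) + 1) := by
        have h8 : F x * (-(σ x + -s)) ≤ K0 * (-(σ x + -s)) :=
          mul_le_mul_of_nonneg_right (hFK x) h6
        nlinarith
      calc E * (F x - lam * (K0 * (-(σ x + -s)))) ≤
            E * (F x * (-(lam * (-(σ x + -s))) + 1)) := mul_le_mul_of_nonneg_left h7 hE0.le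
        _ ≤ E * (F x * Real.exp (-(lam * (-(σ x + -s))))) :=
            mul_le_mul_of_nonneg_left (mul_le_mul_of_nonneg_left h5 (hF0 x).le) hE0.le
        _ = _ := by ring
    refine le_trans ?_ h3
    have h4 : IX w (fun x => E * (F x - lam * (K0 * (-(σ x + -s))))) =
        E * (A - lam * (K0 * IX w (fun x => -(σ x + -s)))) := by
      rw [IX_const_mul, IX_sub hwH cF (by fun_prop), IX_const_mul, IX_const_mul]
    rw [h4]
    refine mul_le_mul_of_nonneg_left ?_ hE0.le
    have h5 : lam * (K0 * IX w (fun x => -(σ x + -s))) ≤ lam * (K0 * C1) :=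
      mul_le_mul_of_nonneg_left (mul_le_mul_of_nonneg_left hL hK0.le) hlam0.le
    have h6 : lam * (K0 * C1) = 1 / 4 * A := by rw [hlam]; field_simp
    linarith
  have hEV : E ≤ 8 / 3 * V := by nlinarith
  refine ⟨σ, hσ, fun x => ?_, ?_⟩
  · -- the upper bound
    have hx := at_chartAt (n := n) x
    refine (mX_le hn hχH hwH hx).trans ?_
    have hdw := hwH.det_re_pos hx
    rw [hMA _ x hx, mul_div_assoc, div_self hdw.ne', mul_one, abs_of_pos hV0]
    have h3 : Real.exp (lam * σ x) ≤ E :=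
      Real.exp_le_exp.2 (mul_le_mul_of_nonneg_left (hσmax x) hlam0.le)
    have h4 : F x * Real.exp (lam * σ x) ≤ K0 * (8 / 3 * V) :=
      mul_le_mul (hFK x) (h3.trans hEV) (Real.exp_pos _).le hK0.le
    linarith
  · -- the lower bound
    set τ : X → ℝ := trX (chiF w t σ) w with hτ
    have hτs : SmoothFn (n := n) τ := S7.smoothFn_trX_w hχH hwH
    have cτ := INT.SmoothFn.continuous hτs
    have hτ0 : ∀ x, 0 < τ x := fun x => S7.trX_pos hχH hwH x
    have cm : Continuous (mX w (chiF w t σ)) := continuous_mX hχH hwH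
    have hM := IX_tr_le hw hσ hφ₀
    have hτpos : 0 < IX (chiF w t σ) τ := IX_pos hχH cτ hτ0
    have hV1p : 0 < V₁ := hτpos.trans_le hM
    have hIX : ∀ u : X → ℝ, IX (chiF w t σ) u =
        IX w (fun x => u x * (F x * Real.exp (lam * σ x))) := by
      intro u
      unfold IX
      refine INT.intX_congr fun e x hx => ?_
      rw [hMA e x hx, hx.left_inv]
      ring
    have hT : IX w (fun x => τ x * (F x * Real.exp (lam * σ x))) ≤ V₁ := by
      rw [← hIX]; exact hM
    set J := IX w (fun x => F x * mX w (chiF w t σ) x) with hJ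
    have hc : ∀ c : ℝ, 2 * c * V - c ^ 2 * V₁ ≤ E * J := by
      intro c
      have h3 : IX w (fun x => 2 * c * (F x * Real.exp (lam * σ x)) -
          c ^ 2 * (τ x * (F x * Real.exp (lam * σ x)))) ≤ IX w (fun x => E * (F x * mX w (chiF w t σ) x)) := by
        refine IX_mono hwH (by fun_prop) (by fun_prop) fun x => ?_
        have h4 : mX w (chiF w t σ) x = (τ x)⁻¹ := rfl
        rw [h4]
        have h3 : Real.exp (lam * σ x) ≤ E :=
          Real.exp_le_exp.2 (mul_le_mul_of_nonneg_left (hσmax x) hlam0.le)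
        set y := Real.exp (lam * σ x) with hy
        have hy0 : 0 < y := Real.exp_pos _
        have h7 : (τ x)⁻¹ * τ x = 1 := inv_mul_cancel₀ (hτ0 x).ne'
        have h6 : y * (F x * (τ x)⁻¹) - (2 * c * (F x * y) - c ^ 2 * (τ x * (F x * y))) =
            F x * y * (τ x)⁻¹ * (1 - c * τ x) ^ 2 := by
          have h8 : F x * y * (τ x)⁻¹ * (1 - c * τ x) ^ 2 = y * (F x * (τ x)⁻¹) -
              2 * c * (F x * y) * ((τ x)⁻¹ * τ x) +
              c ^ 2 * (τ x * (F x * y)) * ((τ x)⁻¹ * τ x) := by ring1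
          rw [h8, h7]; ring
        have h9 : 0 ≤ F x * y * (τ x)⁻¹ * (1 - c * τ x) ^ 2 := by
          have := hF0 x
          have := hτ0 x
          positivity
        have h10 : y * (F x * (τ x)⁻¹) ≤ E * (F x * (τ x)⁻¹) :=
          mul_le_mul_of_nonneg_right h3 (by have := hF0 x; have := hτ0 x; positivity)
        linarith
      have e1 : IX w (fun x => 2 * c * (F x * Real.exp (lam * σ x)) -
          c ^ 2 * (τ x * (F x * Real.exp (lam * σ x)))) =
          2 * c * IX w (fun x => F x * Real.exp (lam * σ x)) -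
          c ^ 2 * IX w (fun x => τ x * (F x * Real.exp (lam * σ x))) := by
        rw [IX_sub hwH (by fun_prop) (by fun_prop), IX_const_mul, IX_const_mul]
      rw [e1, ← hvol, IX_const_mul, ← hJ] at h3
      have h5 : c ^ 2 * IX w (fun x => τ x * (F x * Real.exp (lam * σ x))) ≤ c ^ 2 * V₁ :=
        mul_le_mul_of_nonneg_left hT (sq_nonneg c)
      linarith
    have h3 := hc (V / V₁)
    have h4 : 2 * (V / V₁) * V - (V / V₁) ^ 2 * V₁ = V ^ 2 / V₁ := by
      field_simp; ring
    rw [h4, div_le_iff₀ hV1p] at h3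
    -- `V² ≤ E J V₁` and `E A (3/4) ≤ V`
    have h5 : E * (A * (3 / 4) * V) ≤ E * (V₁ * J) := by nlinarith
    have h6 := le_of_mul_le_mul_left h5 hE0
    linarith

end Vale.Agent.P272.S3O
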